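import Vale.Agent.P219.Six.Switch.Pre

/-!
# Integrating the shares over the chords that leave through a given boundary point
-/

open MeasureTheory Set Filter Topology
open scoped ENNReal ContDiff RealInnerProductSpace

namespace Vale.Agent.P219.Six

open Vale.Agent.P219 Vale.Agent.P219.Univ Vale.Agent.P219.Six.Surf

noncomputable section

variable {g : MetricField 6} {Ex Lo : Space 6 → Space 6 → Space 6} {φ : Space 6 → ℝ} {η : ℝ}

/-- The other end of the chord leaving `y` in direction `w`. -/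
def farEnd (Ex : Space 6 → Space 6 → Space 6) (φ : Space 6 → ℝ) (y w : Space 6) : Space 6 :=
  Ex y (exitT Ex φ (φ y) y w • w)

/-- The cosine at `y`. -/
def cosIn (g : MetricField 6) (Ex : Space 6 → Space 6 → Space 6) (φ : Space 6 → ℝ)
    (y w : Space 6) : ℝ :=
  -cosN g φ y (vel Ex y w 0)

/-- The cosine at the other end. -/
def cosFar (g : MetricField 6) (Ex : Space 6 → Space 6 → Space 6) (φ : Space 6 → ℝ)
    (y w : Space 6) : ℝ :=
  cosN g φ (farEnd Ex φ y w) (vel Ex y w (exitT Ex φ (φ y) y w))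

/-- The value of the share per unit length along the chord leaving `y` in direction `w`. -/
def chordVal (g : MetricField 6) (Ex : Space 6 → Space 6 → Space 6) (φ : Space 6 → ℝ) (k : ℝ → ℝ)
    (l ε : ℝ) (y w : Space 6) : ℝ≥0∞ :=
  if 0 < cosIn g Ex φ y w ∧ 0 < cosFar g Ex φ y w then
    ENNReal.ofReal (k (φ y) * gradLen g φ y * (cosIn g Ex φ y w *
      share l ε (exitT Ex φ (φ y) y w) (cosIn g Ex φ y w) (cosFar g Ex φ y w)) /
        exitT Ex φ (φ y) y w)
  else 0

theorem reg_of_cos {z V : Space 6} (h : 0 < cosN g φ z V) : fderiv ℝ φ z ≠ 0 :=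
  fun h0 => by simp [cosN, h0] at h

theorem ray_le (hg : IsMetric g) (hc : JointCharts g Ex Lo) (hs : SecBound g 0) (hd : Defining φ)
    {k : ℝ → ℝ} (hk0 : ∀ s, 0 ≤ k s) {l ε : ℝ} (y w : Space 6) (hw : ‖w‖ = 1) {s : ℝ}
    (hs0 : 0 < s) :
    pairFn g Ex Lo φ k l ε (Ex y (s • w)) y * ENNReal.ofReal (s ^ 5 * jac g Ex y (s • w)) ≤
      (Ioo 0 (exitT Ex φ (φ y) y w)).indicator (fun _ => chordVal g Ex φ k l ε y w) s := by
  obtain ⟨v, hv, hvdef, hpos, hvel⟩ := reverse hg hc y w hw hs0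
  set x := Ex y (s • w) with hxdef
  have hw0 : w ≠ 0 := fun h => by rw [h, norm_zero] at hw; exact zero_ne_one hw
  have hv0 : v ≠ 0 := fun h => by rw [h, norm_zero] at hv; exact zero_ne_one hv
  have hn : ‖Lo x y‖ = s := by
    rw [dist_symm hg hc, hxdef, hc.left, norm_smul, hw, mul_one, Real.norm_of_nonneg hs0.le]
  have hj : jac g Ex x (Lo x y) = jac g Ex y (s • w) := by
    rw [← jac_symm hg hc y x, hxdef, hc.left]
  have hJ : 0 < s ^ 5 * jac g Ex y (s • w) :=
    mul_pos (pow_pos hs0 5) (jac_pos hg hc hs y _)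
  rw [pairFn, hn, ← hvdef, hj,
    ENNReal.div_mul_cancel (ENNReal.ofReal_pos.2 hJ).ne' ENNReal.ofReal_ne_top, ray]
  have hy : Ex x (s • v) = y := by rw [hpos, sub_self, zero_smul, hc.zero]
  have hvy : vel Ex x v s = -vel Ex y w 0 := by rw [hvel, sub_self]
  rw [hy, hvy]
  split_ifs with h
  swap
  · exact zero_le
  obtain ⟨-, hxy, hy1, hst⟩ := h
  obtain ⟨-, -, hlt⟩ := exit_spec hc hd x v hv0 hy1 hxy
  rw [hst] at hlt
  obtain ⟨hb, hbe, hblt⟩ := exit_spec hc hd x (-v) (neg_ne_zero.2 hv0) hy1 hxy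
  set b := exitT Ex φ (φ y) x (-v) with hbdef
  have hback : ∀ t : ℝ, Ex x (t • -v) = Ex y ((s + t) • w) := fun t => by
    rw [smul_neg, ← neg_smul, hpos, sub_neg_eq_add]
  have hL : exitT Ex φ (φ y) y w = s + b := by
    refine IsLeast.csInf_eq ⟨⟨add_pos hs0 hb, ?_⟩, fun t ht => ?_⟩
    · rw [← hback, hbe]
    · rcases le_or_gt t s with h1 | h1
      · have h2 := hlt (s - t) (sub_nonneg.2 h1) (by linarith [ht.1])
        rw [hpos, sub_sub_cancel] at h2
        exact absurd ht.2 (not_le.2 h2)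
      · by_contra hcon
        have h2 := hblt (t - s) (by linarith) (by linarith [not_le.1 hcon])
        rw [hback, add_sub_cancel] at h2
        exact absurd ht.2 (not_le.2 h2)
  rw [indicator_of_mem (show s ∈ Ioo 0 (exitT Ex φ (φ y) y w) from ⟨hs0, by rw [hL]; linarith⟩)]
  have hvb : vel Ex x (-v) b = vel Ex y w (s + b) := by
    have h1 := hvel (-b)
    rw [sub_neg_eq_add] at h1
    rw [vel, smul_neg, ← neg_smul, map_neg, ← neg_eq_iff_eq_neg.2 h1]
    rfl
  have hcin : cosN g φ y (-vel Ex y w 0) = cosIn g Ex φ y w := by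
    rw [cosIn, cosN, cosN, map_neg, neg_div]
  have hdfar : cosN g φ (Ex x (b • -v)) (vel Ex x (-v) b) = cosFar g Ex φ y w := by
    rw [cosFar, farEnd, hL, hback, hvb]
  rw [half, hy, hvy, hcin, ← hbdef, hdfar, chordVal]
  split_ifs with h1
  swap
  · simp
  have hgl := gradLen_pos hg (φ := φ) (x := y) (reg_of_cos (hcin.symm ▸ h1.1))
  have e : |fderiv ℝ φ y (-vel Ex y w 0)| = cosIn g Ex φ y w * gradLen g φ y := by
    rw [← hcin, cosN, div_mul_cancel₀ _ hgl.ne', abs_of_pos]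
    rw [← hcin] at h1
    exact (div_pos_iff_of_pos_right hgl).1 h1.1
  rw [e, hL, ← ENNReal.ofReal_mul (hk0 _),
    ← ENNReal.ofReal_mul (mul_nonneg h1.1.le hgl.le)]
  exact le_of_eq (congrArg ENNReal.ofReal (by ring))

/-- Integrating over the chord cancels its length. -/
theorem line_le (hg : IsMetric g) (hc : JointCharts g Ex Lo) (hs : SecBound g 0) (hd : Defining φ)
    {k : ℝ → ℝ} (hk0 : ∀ s, 0 ≤ k s) {l ε : ℝ} (y w : Space 6) (hw : ‖w‖ = 1) :
    ∫⁻ s in Ioi (0 : ℝ), pairFn g Ex Lo φ k l ε (Ex y (s • w)) y *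
        ENNReal.ofReal (s ^ 5 * jac g Ex y (s • w)) ≤
      chordVal g Ex φ k l ε y w * ENNReal.ofReal (exitT Ex φ (φ y) y w) := by
  refine (setLIntegral_mono' measurableSet_Ioi fun s hs0 => ray_le hg hc hs hd hk0 y w hw hs0).trans ?_
  refine (setLIntegral_le_lintegral _ _).trans (le_of_eq ?_)
  rw [lintegral_indicator_const measurableSet_Ioo, Real.volume_Ioo, sub_zero]

theorem kernel_contDiffOn (hg : IsMetric g) (hc : JointCharts g Ex Lo) (hd : Defining φ) {l ε : ℝ}
    (hε : 0 < ε) (y : Space 6) :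
    ContDiffOn ℝ 1 (kernel g Lo φ l ε y) (regSet φ) := by
  have hp : ContDiff ℝ ∞ (psi Lo y) := hc.smooth_psi_at y
  have hρ : ContDiffOn ℝ 1 (fun z => 2 * psi Lo y z) (regSet φ) :=
    (contDiff_const.mul (hp.of_le (by simp))).contDiffOn
  have hu : ContDiffOn ℝ 1 (fun z => fderiv ℝ (psi Lo y) z (unitN g φ z)) (regSet φ) :=
    (hp.fderiv_right (m := 1) (WithTop.coe_le_coe.2 le_top)).contDiffOn.clm_apply (contDiffOn_unitN hg hd)
  have hne : ∀ z ∈ regSet φ, 2 * psi Lo y z + ε ≠ 0 := fun z _ =>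
    (add_pos_of_nonneg_of_pos (mul_nonneg zero_le_two (JointCharts.psi_nonneg y z)) hε).ne'
  have hρε := hρ.add (contDiffOn_const (c := ε))
  unfold kernel Reps beta
  exact contDiffOn_const.add (contDiffOn_const.mul
    (((contDiffOn_const.div hρε hne).sub ((contDiffOn_const.mul (hρ.sub (hu.pow 2))).div
      (hρε.pow 2) fun z hz => pow_ne_zero 2 (hne z hz))).sub
      ((contDiffOn_const.mul hu).div hρε hne)))

theorem kernel_nonneg (hg : IsMetric g) (hc : JointCharts g Ex Lo) {l ε : ℝ} (hl : 0 < l)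
    (hε : 0 < ε) (y z : Space 6) : 0 ≤ kernel g Lo φ l ε y z := by
  refine Reps_nonneg hl hε (mul_nonneg zero_le_two (JointCharts.psi_nonneg y z)) ?_
  rw [← grad_psi_sq hg hc, ← gNorm_sq hg, ← gGrad_dual hg (psi Lo y) z (unitN g φ z)]
  refine sq_le_sq.2 ((abs_g_le hg _ _ _).trans ?_)
  rw [abs_of_nonneg (gNorm_nonneg g _ _)]
  exact mul_le_of_le_one_right (gNorm_nonneg g _ _) (gNorm_unitN_le hg z)

/-- The chord value split into the kernel, the weight and a remainder. -/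
theorem chordVal_le (hg : IsMetric g) (hc : JointCharts g Ex Lo) (hs : SecBound g 0) {k : ℝ → ℝ}
    (hk0 : ∀ s, 0 ≤ k s) {l ε : ℝ} (hl : 0 < l) (hε : 0 < ε) (y w : Space 6) (hw : ‖w‖ = 1) :
    chordVal g Ex φ k l ε y w * ENNReal.ofReal (exitT Ex φ (φ y) y w) ≤
      ENNReal.ofReal (k (φ y) * gradLen g φ y) *
        (ENNReal.ofReal (if 0 < cosIn g Ex φ y w then
            gFun (cosIn g Ex φ y w) * cosIn g Ex φ y w else 0) +
          (ENNReal.ofReal (l * Real.sqrt ε / 4) + ENNReal.ofReal (alpha * l ^ 5 / 2) *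
            if fderiv ℝ φ y (vel Ex y w 0) < 0 ∧ 0 < fderiv ℝ φ (farEnd Ex φ y w)
                (vel Ex y w (exitT Ex φ (φ y) y w)) then
              ENNReal.ofReal (exitT Ex φ (φ y) y w ^ 5 *
                jac g Ex y (exitT Ex φ (φ y) y w • w) * kernel g Lo φ l ε y (farEnd Ex φ y w) /
                cosFar g Ex φ y w)
            else 0)) := by
  by_cases h : 0 < cosIn g Ex φ y w ∧ 0 < cosFar g Ex φ y w
  swap
  · rw [chordVal, if_neg h, zero_mul]; exact zero_le
  obtain ⟨hc0, hd0⟩ := h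
  have hreg2 := reg_of_cos hd0
  have hreg1 : fderiv ℝ φ y ≠ 0 := fun h0 => by simp [cosIn, cosN, h0] at hc0
  have hvis : fderiv ℝ φ y (vel Ex y w 0) < 0 ∧
      0 < fderiv ℝ φ (farEnd Ex φ y w) (vel Ex y w (exitT Ex φ (φ y) y w)) := by
    refine ⟨?_, (div_pos_iff_of_pos_right (gradLen_pos hg hreg2)).1 hd0⟩
    have h2 := hc0
    rwa [cosIn, cosN, ← neg_div, div_pos_iff_of_pos_right (gradLen_pos hg hreg1), neg_pos] at h2
  rw [chordVal, if_pos ⟨hc0, hd0⟩, if_pos hc0, if_pos hvis]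
  rcases le_or_gt (exitT Ex φ (φ y) y w) 0 with hL | hL
  · simp [ENNReal.ofReal_eq_zero.2 hL]
  set L := exitT Ex φ (φ y) y w with hLdef
  have hd1 : cosFar g Ex φ y w ≤ 1 := cosN_le_one hg hc hw hreg2
  have hc1 : cosIn g Ex φ y w ≤ 1 := by
    have h3 := cosN_le_one hg hc (x := y) (v := -w) (φ := φ) (t := 0) (by rw [norm_neg, hw])
      (by rw [zero_smul, hc.zero]; exact hreg1)
    rw [zero_smul, hc.zero] at h3
    refine le_trans (le_of_eq ?_) h3
    simp only [cosIn, cosN, vel, zero_smul, map_neg, neg_div]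
  have hk : kernel g Lo φ l ε y (farEnd Ex φ y w) =
      Reps l ε (L ^ 2) (L * cosFar g Ex φ y w) := by
    rw [kernel, cosFar, ← cosN_eq hg hreg2, farEnd, dpsi_ray hg hc, psi, hc.left, norm_smul, hw,
      Real.norm_of_nonneg hL.le]
    rw [← hLdef]
    ring_nf
  have hR : 0 ≤ Reps l ε (L ^ 2) (L * cosFar g Ex φ y w) :=
    (Reps_pos hl hε (by nlinarith)).le
  have hJ := jac_ge_one hg hc hs y (L • w)
  rw [hk, ← ENNReal.ofReal_mul' hL.le, div_mul_cancel₀ _ hL.ne']
  have hg0 : 0 ≤ gFun (cosIn g Ex φ y w) * cosIn g Ex φ y w := by unfold gFun; positivity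
  have hgl := gradLen_nonneg g φ y
  rw [← ENNReal.ofReal_mul (by unfold alpha; positivity),
    ← ENNReal.ofReal_add (by positivity) (by unfold alpha; positivity),
    ← ENNReal.ofReal_add hg0 (by unfold alpha; positivity),
    ← ENNReal.ofReal_mul (mul_nonneg (hk0 _) hgl)]
  refine ENNReal.ofReal_le_ofReal (mul_le_mul_of_nonneg_left ?_ (mul_nonneg (hk0 _) hgl))
  set c := cosIn g Ex φ y w
  set d := cosFar g Ex φ y w
  set R := Reps l ε (L ^ 2) (L * d)
  have e : c * share l ε L c d =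
      alpha * l ^ 5 / 2 * (L ^ 5 * R / d) + gFun c * c + c * (l * Real.sqrt ε / 4) := by
    unfold share
    field_simp
    ring
  have h4 : L ^ 5 * R / d ≤ L ^ 5 * jac g Ex y (L • w) * R / d := by
    refine div_le_div_of_nonneg_right (mul_le_mul_of_nonneg_right ?_ hR) hd0.le
    exact le_mul_of_one_le_right (by positivity) hJ
  have h5 : c * (l * Real.sqrt ε / 4) ≤ l * Real.sqrt ε / 4 :=
    mul_le_of_le_one_left (by positivity) hc1
  have h6 := mul_le_mul_of_nonneg_left h4 (show 0 ≤ alpha * l ^ 5 / 2 by unfold alpha; positivity)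
  rw [e]
  linarith

end

end Vale.Agent.P219.Six
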