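import Vale.Agent.P219.Six.Scalar
import Vale.Agent.P219.Six.Const
import Vale.Agent.P219.Six.Exit

/-!
# Chords: the pointwise inequality and the measurable data
-/

open MeasureTheory Set Filter Topology
open scoped ENNReal ContDiff RealInnerProductSpace

namespace Vale.Agent.P219.Six

open Vale.Agent.P219 Vale.Agent.P219.Univ Vale.Agent.P219.Six.Surf

noncomputable section

variable {g : MetricField 6} {Ex Lo : Space 6 → Space 6 → Space 6} {φ : Space 6 → ℝ} {η : ℝ}

/-- The share of a chord of length `r` attributed to its end with cosine `c`. -/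
def share (l ε r c d : ℝ) : ℝ :=
  alpha * (l * r) ^ 5 * Reps l ε (r ^ 2) (r * d) / (2 * (c * d)) + gFun c + l * Real.sqrt ε / 4

/-- The share, per unit length, of the chord through `x` in direction `v` at its end at time `t`,
for the level `s`. -/
def half (g : MetricField 6) (Ex : Space 6 → Space 6 → Space 6) (φ : Space 6 → ℝ) (l ε s t : ℝ)
    (x v : Space 6) : ℝ≥0∞ :=
  if 0 < cosN g φ (Ex x (t • v)) (vel Ex x v t) ∧
      0 < cosN g φ (Ex x (exitT Ex φ s x (-v) • -v)) (vel Ex x (-v) (exitT Ex φ s x (-v))) then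
    ENNReal.ofReal (share l ε (t + exitT Ex φ s x (-v)) (cosN g φ (Ex x (t • v)) (vel Ex x v t))
      (cosN g φ (Ex x (exitT Ex φ s x (-v) • -v)) (vel Ex x (-v) (exitT Ex φ s x (-v)))) /
      (t + exitT Ex φ s x (-v)))
  else 0

/-- The weighted share, as a function of the ray and the time of exit. -/
def ray (g : MetricField 6) (Ex : Space 6 → Space 6 → Space 6) (φ : Space 6 → ℝ) (k : ℝ → ℝ)
    (l ε : ℝ) (x v : Space 6) (t : ℝ) : ℝ≥0∞ :=
  if 0 < t ∧ φ x < φ (Ex x (t • v)) ∧ φ (Ex x (t • v)) < 1 ∧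
      exitT Ex φ (φ (Ex x (t • v))) x v = t then
    ENNReal.ofReal |fderiv ℝ φ (Ex x (t • v)) (vel Ex x v t)| *
      (ENNReal.ofReal (k (φ (Ex x (t • v)))) * half g Ex φ l ε (φ (Ex x (t • v))) t x v)
  else 0

/-- `ray` as a density in the second point. -/
def pairFn (g : MetricField 6) (Ex Lo : Space 6 → Space 6 → Space 6) (φ : Space 6 → ℝ)
    (k : ℝ → ℝ) (l ε : ℝ) (x y : Space 6) : ℝ≥0∞ :=
  ray g Ex φ k l ε x (‖Lo x y‖⁻¹ • Lo x y) ‖Lo x y‖ /
    ENNReal.ofReal (‖Lo x y‖ ^ 5 * jac g Ex x (Lo x y))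

theorem share_nonneg {l ε r c d : ℝ} (hl : 0 < l) (hε : 0 < ε) (hr : 0 ≤ r) (hc : 0 < c)
    (hd : 0 < d) (hd1 : d ≤ 1) : 0 ≤ share l ε r c d := by
  have h1 := (Reps_pos (r := r) (w := d) hl hε (by nlinarith)).le
  unfold share gFun alpha
  positivity

theorem chord_share {l ε r c d : ℝ} (hl : 0 < l) (hε : 0 < ε) (hr : 0 < r) (hc : 0 < c) (hd : 0 < d)
    (hc1 : c ≤ 1) (hd1 : d ≤ 1) :
    ENNReal.ofReal l ≤ ENNReal.ofReal (share l ε r c d / r) + ENNReal.ofReal (share l ε r d c / r) := by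
  rw [← ENNReal.ofReal_add (div_nonneg (share_nonneg hl hε hr.le hc hd hd1) hr.le)
    (div_nonneg (share_nonneg hl hε hr.le hd hc hc1) hr.le), ← add_div]
  refine ENNReal.ofReal_le_ofReal ((le_div_iff₀ hr).2 ?_)
  refine (chord_ineq hl hε hr.le hc hd hc1 hd1).trans (le_of_eq ?_)
  unfold share
  ring

theorem cosN_eq (hg : IsMetric g) {z : Space 6} (hz : fderiv ℝ φ z ≠ 0) (V : Space 6) :
    g z V (unitN g φ z) = cosN g φ z V := by
  rw [cosN, eq_div_iff (gradLen_pos hg hz).ne', g_unitN hg]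

theorem cosN_le_one (hg : IsMetric g) (hc : JointCharts g Ex Lo) {x v : Space 6} (hv : ‖v‖ = 1)
    {t : ℝ} (hz : fderiv ℝ φ (Ex x (t • v)) ≠ 0) :
    cosN g φ (Ex x (t • v)) (vel Ex x v t) ≤ 1 := by
  have hV : gNorm g (Ex x (t • v)) (vel Ex x v t) = 1 := by
    rw [gNorm, speed_vel hg hc, hv, one_pow, Real.sqrt_one]
  rw [← cosN_eq hg hz]
  refine (le_abs_self _).trans ((abs_g_le hg _ _ _).trans ?_)
  rw [hV, gNorm_unitN hg hz, one_mul]

theorem cosN_pos_iff (hg : IsMetric g) {z : Space 6} (hz : fderiv ℝ φ z ≠ 0) (V : Space 6) :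
    0 < cosN g φ z V ↔ 0 < fderiv ℝ φ z V :=
  div_pos_iff_of_pos_right (gradLen_pos hg hz)

theorem window_reg (hw : RegWindow φ η) {z : Space 6} {τ : ℝ} (hτ : |τ| < η / 2) (hz : φ z = τ) :
    fderiv ℝ φ z ≠ 0 :=
  hw.2.2 z (by rw [hz]; linarith [hw.1])

/-- Along almost every chord, the two shares cover `l`. -/
theorem chord_ae (hg : IsMetric g) (hc : JointCharts g Ex Lo) (hd : Defining φ)
    (hw : RegWindow φ η) {k : ℝ → ℝ} (hk : ∀ s, k s ≠ 0 → |s| < η / 2) {l ε : ℝ} (hl : 0 < l)
    (hε : 0 < ε) (x v : Space 6) (hv : ‖v‖ = 1) :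
    ∀ᵐ s : ℝ, s ∈ Ioo (φ x) 1 → ENNReal.ofReal (k s) * ENNReal.ofReal l ≤
      ENNReal.ofReal (k s) * half g Ex φ l ε s (exitT Ex φ s x v) x v +
        ENNReal.ofReal (k s) * half g Ex φ l ε s (exitT Ex φ s x (-v)) x (-v) := by
  have hv0 : v ≠ 0 := fun h => by rw [h, norm_zero] at hv; exact zero_ne_one hv
  have hv' : ‖-v‖ = 1 := by rw [norm_neg, hv]
  filter_upwards [exit_transversal hc hd x v hv0,
    exit_transversal hc hd x (-v) (neg_ne_zero.2 hv0)] with s h1 h2 hs
  rcases eq_or_ne (k s) 0 with h0 | h0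
  · simp [h0]
  have hsw := hk s h0
  obtain ⟨ha, hae, -⟩ := exit_spec hc hd x v hv0 hs.2 hs.1
  obtain ⟨hb, hbe, -⟩ := exit_spec hc hd x (-v) (neg_ne_zero.2 hv0) hs.2 hs.1
  have hza := window_reg hw hsw hae
  have hzb := window_reg hw hsw hbe
  have hc1 := (cosN_pos_iff hg hza _).2 (h1 hs.1 hs.2)
  have hd1 := (cosN_pos_iff hg hzb _).2 (h2 hs.1 hs.2)
  rw [half, half, neg_neg, if_pos ⟨hc1, hd1⟩, if_pos ⟨hd1, hc1⟩, ← mul_add,
    add_comm (exitT Ex φ s x (-v))]
  exact mul_le_mul' le_rfl (chord_share hl hε (add_pos ha hb) hc1 hd1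
    (cosN_le_one hg hc hv hza) (cosN_le_one hg hc hv' hzb))

theorem continuous_dExp (hc : JointCharts g Ex Lo) :
    Continuous fun p : Space 6 × Space 6 => fderiv ℝ (Ex p.1) p.2 :=
  (ContDiff.fderiv (f := fun (p : Space 6 × Space 6) (u : Space 6) => Ex p.1 u) (m := ∞) (n := ∞)
    (hc.smooth_exp.comp ((contDiff_fst.comp contDiff_fst).prodMk contDiff_snd))
    contDiff_snd (by simp)).continuous

section Measurable

variable {α : Type*} [MeasurableSpace α] (hg : IsMetric g) (hc : JointCharts g Ex Lo)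
  (hd : Defining φ) {xf vf : α → Space 6} {sf tf : α → ℝ} (hx : Measurable xf) (hv : Measurable vf)
  (hs : Measurable sf) (ht : Measurable tf)
include hg hc hd hx hv

omit hg hd in
theorem measurable_point (ht : Measurable tf) : Measurable fun a => Ex (xf a) (tf a • vf a) := by
  have := hc.continuous_exp.measurable.comp (hx.prodMk (ht.smul hv))
  exact this

include ht

omit hg in
theorem measurable_dphi_vel : Measurable fun a =>
    fderiv ℝ φ (Ex (xf a) (tf a • vf a)) (vel Ex (xf a) (vf a) (tf a)) := by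
  have h1 : Continuous fun q : Space 6 × Space 6 × ℝ =>
      fderiv ℝ φ (Ex q.1 (q.2.2 • q.2.1)) (vel Ex q.1 q.2.1 q.2.2) := by
    have hp : Continuous fun q : Space 6 × Space 6 × ℝ => (q.1, q.2.2 • q.2.1) :=
      continuous_fst.prodMk ((continuous_snd.comp continuous_snd).smul
        (continuous_fst.comp continuous_snd))
    exact ((hd.smooth.continuous_fderiv (by norm_num)).comp (hc.continuous_exp.comp hp)).clm_apply
      (((continuous_dExp hc).comp hp).clm_apply (continuous_fst.comp continuous_snd))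
  exact h1.measurable.comp (hx.prodMk (hv.prodMk ht))

theorem measurable_cos : Measurable fun a =>
    cosN g φ (Ex (xf a) (tf a • vf a)) (vel Ex (xf a) (vf a) (tf a)) :=
  (measurable_dphi_vel hc hd hx hv ht).div
    ((gradLen_continuous hg hd.smooth).measurable.comp (measurable_point hc hx hv ht))

include hs

omit ht in
theorem measurable_exit_comp : Measurable fun a => exitT Ex φ (sf a) (xf a) (vf a) :=
  (measurable_exitT hc hd).comp (hs.prodMk (hx.prodMk hv))

theorem measurable_half (l ε : ℝ) :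
    Measurable fun a => half g Ex φ l ε (sf a) (tf a) (xf a) (vf a) := by
  have hb := measurable_exit_comp hg hc hd hx hv.neg hs
  have hc1 := measurable_cos hg hc hd hx hv ht
  have hd1 := measurable_cos hg hc hd hx hv.neg hb
  have hr := ht.add hb
  unfold half
  refine Measurable.ite ((measurableSet_lt measurable_const hc1).inter
    (measurableSet_lt measurable_const hd1)) (ENNReal.measurable_ofReal.comp ?_) measurable_const
  unfold share Reps beta gFun
  fun_prop

omit hs in
theorem measurable_ray {k : ℝ → ℝ} (hk : Continuous k) (l ε : ℝ) :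
    Measurable fun a => ray g Ex φ k l ε (xf a) (vf a) (tf a) := by
  have hp := hd.smooth.continuous.measurable.comp (measurable_point hc hx hv ht)
  unfold ray
  refine Measurable.ite ((measurableSet_lt measurable_const ht).inter
    ((measurableSet_lt (hd.smooth.continuous.measurable.comp hx) hp).inter
      ((measurableSet_lt hp measurable_const).inter
        (measurableSet_eq_fun (measurable_exit_comp hg hc hd hx hv hp) ht))))
    ((ENNReal.measurable_ofReal.comp (measurable_dphi_vel hc hd hx hv ht).abs).mul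
      ((ENNReal.measurable_ofReal.comp (hk.measurable.comp hp)).mul
        (measurable_half hg hc hd hx hv hp ht l ε))) measurable_const

end Measurable

theorem measurable_ray_pair (hg : IsMetric g) (hc : JointCharts g Ex Lo) (hd : Defining φ)
    {k : ℝ → ℝ} (hk : Continuous k) (l ε : ℝ) {v : Space 6 × Space 6 → Space 6}
    {t : Space 6 × Space 6 → ℝ} (hv : Measurable v) (ht : Measurable t) :
    Measurable fun p : Space 6 × Space 6 => ray g Ex φ k l ε p.1 (v p) (t p) :=
  measurable_ray hg hc hd measurable_fst hv ht hk l ε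

theorem measurable_pairFn (hg : IsMetric g) (hc : JointCharts g Ex Lo) (hd : Defining φ)
    {k : ℝ → ℝ} (hk : Continuous k) (l ε : ℝ) :
    Measurable fun p : Space 6 × Space 6 => pairFn g Ex Lo φ k l ε p.1 p.2 := by
  have hu : Measurable fun p : Space 6 × Space 6 => Lo p.1 p.2 := hc.continuous_log.measurable
  have hj : Measurable fun p : Space 6 × Space 6 => jac g Ex p.1 (Lo p.1 p.2) :=
    Measurable.comp (g := fun q : Space 6 × Space 6 => jac g Ex q.1 q.2)
      (f := fun p : Space 6 × Space 6 => (p.1, Lo p.1 p.2))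
      (continuous_jac hg hc).measurable (measurable_fst.prodMk hu)
  have h1 := measurable_ray_pair hg hc hd hk l ε (hu.norm.inv.smul hu) hu.norm
  have h2 : Measurable fun p : Space 6 × Space 6 =>
      ENNReal.ofReal (‖Lo p.1 p.2‖ ^ 5 * jac g Ex p.1 (Lo p.1 p.2)) :=
    ENNReal.measurable_ofReal.comp ((hu.norm.pow_const 5).mul hj)
  simp only [pairFn]
  exact h1.div h2

end

end Vale.Agent.P219.Six
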